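import Mathlib

namespace Vale.Agent.P033Sym

open Finset

variable {n : ℕ} [NeZero n]

/-- Signs with vanishing periodic autocorrelation at every nonzero shift. -/
structure Perfect (h : ZMod n → ℤ) : Prop where
  sign : ∀ i, h i = 1 ∨ h i = -1
  corr : ∀ t, t ≠ 0 → ∑ i, h i * h (i + t) = 0

namespace Perfect

variable {h : ZMod n → ℤ}

lemma sq (H : Perfect h) (i : ZMod n) : h i * h i = 1 := by
  rcases H.sign i with e | e <;> simp [e]

lemma corr_zero (H : Perfect h) : ∑ i, h i * h (i + 0) = (n : ℤ) := by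
  simp [H.sq, ZMod.card]

lemma corr_eq (H : Perfect h) (t : ZMod n) :
    ∑ i, h i * h (i + t) = if t = 0 then (n : ℤ) else 0 := by
  split_ifs with ht
  · subst ht; exact H.corr_zero
  · exact H.corr t ht

lemma sum_sq (H : Perfect h) : (∑ i, h i) ^ 2 = (n : ℤ) := by
  calc (∑ i, h i) ^ 2 = ∑ i, ∑ t, h i * h (i + t) := by
        rw [pow_two, Finset.sum_mul]
        refine Finset.sum_congr rfl fun i _ => ?_
        rw [Finset.mul_sum]
        exact (Fintype.sum_equiv (Equiv.addLeft i) _ _ (fun _ => rfl)).symm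
    _ = ∑ t, ∑ i, h i * h (i + t) := Finset.sum_comm
    _ = (n : ℤ) := by simp [H.corr_eq]

end Perfect

/-- The compression of `h` modulo `b`. -/
def comp (b : ℕ) (h : ZMod n → ℤ) (x : ZMod b) : ℤ :=
  ∑ i ∈ univ.filter (fun i : ZMod n => (i.val : ZMod b) = x), h i

lemma comp_corr {b : ℕ} [NeZero b] (hb : b ∣ n) {h : ZMod n → ℤ} (H : Perfect h) (d : ZMod b) :
    ∑ x, comp b h x * comp b h (x + d) = if d = 0 then (n : ℤ) else 0 := by
  let π : ZMod n →+* ZMod b := ZMod.castHom hb (ZMod b)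
  have hπ : ∀ i : ZMod n, (i.val : ZMod b) = π i := fun i => by
    simp [π, ZMod.natCast_val]
  simp only [comp, hπ]
  calc ∑ x, (∑ i ∈ univ.filter (fun i => π i = x), h i) *
        (∑ i ∈ univ.filter (fun i => π i = x + d), h i)
      = ∑ i, ∑ t, if π t = d then h i * h (i + t) else 0 := by
        rw [← Finset.sum_fiberwise univ π (fun i => ∑ t, if π t = d then h i * h (i + t) else 0)]
        refine Finset.sum_congr rfl fun x _ => ?_
        rw [Finset.sum_mul]
        refine Finset.sum_congr rfl fun i hi => ?_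
        rw [Finset.mem_filter] at hi
        rw [Finset.mul_sum, Finset.sum_filter]
        refine (Fintype.sum_equiv (Equiv.addLeft i) _ _ fun t => ?_).symm
        simp [map_add, hi.2]
    _ = ∑ t, if π t = d then (∑ i, h i * h (i + t)) else 0 := by
        rw [Finset.sum_comm]
        exact Finset.sum_congr rfl fun t _ => by split_ifs <;> simp
    _ = if d = 0 then (n : ℤ) else 0 := by
        rw [Finset.sum_eq_single (0 : ZMod n)]
        · rw [map_zero, H.corr_zero]
          by_cases hd : d = 0 <;> simp [hd, eq_comm]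
        · intro t _ ht; simp [H.corr t ht]
        · simp

lemma card_fibre {b : ℕ} [NeZero b] (hb : b ∣ n) (x : ZMod b) :
    (univ.filter fun i : ZMod n => (i.val : ZMod b) = x).card * b = n := by
  let π : ZMod n →+* ZMod b := ZMod.castHom hb (ZMod b)
  have hπ : ∀ i : ZMod n, (i.val : ZMod b) = π i := fun i => by
    simp [π, ZMod.natCast_val]
  simp only [hπ]
  obtain ⟨i₀, hi₀⟩ := ZMod.ringHom_surjective π x
  have key : ∀ y, (univ.filter fun i => π i = y).card = (univ.filter fun i => π i = x).card := by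
    intro y
    obtain ⟨j, hj⟩ := ZMod.ringHom_surjective π y
    refine Finset.card_equiv (Equiv.addRight (i₀ - j)) fun i => ?_
    simp only [mem_filter, mem_univ, true_and, Equiv.coe_addRight, map_add, map_sub, hi₀, hj]
    constructor <;> intro h <;> linear_combination h
  have := Finset.card_eq_sum_card_fiberwise (f := π) (s := (univ : Finset (ZMod n)))
    (t := univ) (fun _ _ => mem_univ _)
  simp only [Finset.card_univ, ZMod.card, key, Finset.sum_const, smul_eq_mul] at this
  linarith [this, Nat.mul_comm b (univ.filter fun i => π i = x).card]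

/-- Distinct subsets of the prime divisors give a nonzero sum of `b / q`. -/
lemma subset_sum_ne_zero (b : ℕ) [NeZero b] {A : Finset ℕ} (hA : A ⊆ b.primeFactors)
    (hne : A.Nonempty) : ((∑ r ∈ A, b / r : ℕ) : ZMod b) ≠ 0 := by
  obtain ⟨q, hq⟩ := hne
  intro h0
  have hp : ∀ r ∈ A, r.Prime := fun r hr => (Nat.prime_of_mem_primeFactors (hA hr))
  have hd : ∀ r ∈ A, r ∣ b := fun r hr => (Nat.dvd_of_mem_primeFactors (hA hr))
  set M := ∏ r ∈ A.erase q, r
  have hb0 : ((b / q * M : ℕ) : ZMod b) = 0 := by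
    have : ((∑ r ∈ A, b / r : ℕ) : ZMod b) * M = 0 := by rw [h0, zero_mul]
    push_cast at this
    rw [Finset.sum_mul, ← Finset.add_sum_erase A _ hq] at this
    rw [Finset.sum_eq_zero, add_zero] at this
    · push_cast
      exact this
    · intro r hr
      obtain ⟨c, hc⟩ := Finset.dvd_prod_of_mem (fun r => r) hr
      change M = r * c at hc
      rw [← Nat.cast_mul, hc, ← mul_assoc, Nat.div_mul_cancel (hd r (Finset.mem_of_mem_erase hr)),
        Nat.cast_mul, ZMod.natCast_self, zero_mul]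
  rw [ZMod.natCast_eq_zero_iff] at hb0
  have hpos : 0 < b / q :=
    Nat.div_pos (Nat.le_of_dvd (Nat.pos_of_neZero b) (hd q hq)) (hp q hq).pos
  have h2 : b / q * q ∣ b / q * M := by rwa [Nat.div_mul_cancel (hd q hq)]
  rw [Nat.mul_dvd_mul_iff_left hpos] at h2
  obtain ⟨r, hr, hr'⟩ := (hp q hq).prime.dvd_finsetProd_iff (fun r => r) |>.1 h2
  exact (Finset.ne_of_mem_erase hr)
    ((Nat.prime_dvd_prime_iff_eq (hp q hq) (hp r (Finset.mem_of_mem_erase hr))).1 hr').symm

lemma symm_compression_bound {b : ℕ} [NeZero b] {g : ZMod b → ℤ} {r : ℤ} {K : ℕ}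
    (hg : ∀ x, g (-x) = g x) (hK : ∀ x, |g x| ≤ K)
    (hcorr : ∀ d, ∑ x, g x * g (x + d) = if d = 0 then r ^ 2 else 0) :
    |r| ≤ 2 ^ b.primeFactors.card * K := by
  obtain ⟨ζ, hζ⟩ : ∃ ζ : ℂ, IsPrimitiveRoot ζ b :=
    ⟨_, Complex.isPrimitiveRoot_exp b (NeZero.ne b)⟩
  set ψ := AddChar.zmodChar b hζ.pow_eq_one with hψ
  have hprim : ψ.IsPrimitive := AddChar.zmodChar_primitive_of_primitive_root b hζ
  have hsq : (∑ x, (g x : ℂ) * ψ x) ^ 2 = (r : ℂ) ^ 2 := by
    calc (∑ x, (g x : ℂ) * ψ x) ^ 2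
        = (∑ x, (g x : ℂ) * ψ (-x)) * ∑ x, (g x : ℂ) * ψ x := by
          rw [pow_two]
          congr 1
          refine Fintype.sum_equiv (Equiv.neg _) _ _ fun x => ?_
          simp [hg]
      _ = ∑ x, ∑ d, (g x : ℂ) * g (x + d) * ψ d := by
          rw [Finset.sum_mul]
          refine Finset.sum_congr rfl fun x _ => ?_
          rw [Finset.mul_sum]
          refine (Fintype.sum_equiv (Equiv.addLeft x) _ _ fun d => ?_).symm
          have : ψ (-x) * ψ (x + d) = ψ d := by rw [← AddChar.map_add_eq_mul]; simp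
          simp only [Equiv.coe_addLeft]
          rw [← this]
          ring
      _ = ∑ d, ((∑ x, g x * g (x + d) : ℤ) : ℂ) * ψ d := by
          rw [Finset.sum_comm]
          push_cast
          simp only [Finset.sum_mul]
      _ = (r : ℂ) ^ 2 := by simp [hcorr]
  obtain ⟨c, hc, hcr⟩ : ∃ c : ℤ, (∑ x, (g x : ℂ) * ψ x) = c ∧ |c| = |r| := by
    rcases sq_eq_sq_iff_eq_or_eq_neg.1 hsq with e | e
    · exact ⟨r, e, rfl⟩
    · exact ⟨-r, by simpa using e, abs_neg r⟩
  -- the same value at every primitive root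
  have hconj : ∀ j : ℕ, j.Coprime b → (∑ x, (g x : ℂ) * ψ x ^ j) = c := by
    intro j hj
    let F : Polynomial ℚ :=
      (∑ x : ZMod b, Polynomial.C (g x : ℚ) * Polynomial.X ^ x.val) - Polynomial.C (c : ℚ)
    have hF : ∀ w : ℂ, Polynomial.aeval w F = (∑ x : ZMod b, (g x : ℂ) * w ^ x.val) - c := by
      intro w; simp [F]
    have h1 : Polynomial.aeval ζ F = 0 := by
      rw [hF, ← hc]; simp [hψ, AddChar.zmodChar_apply]
    have hζj : IsPrimitiveRoot (ζ ^ j) b := hζ.pow_of_coprime j hj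
    have h2 : minpoly ℚ (ζ ^ j) ∣ F := by
      rw [← Polynomial.cyclotomic_eq_minpoly_rat hζj (Nat.pos_of_neZero b),
        Polynomial.cyclotomic_eq_minpoly_rat hζ (Nat.pos_of_neZero b)]
      exact minpoly.dvd ℚ ζ h1
    have h3 : Polynomial.aeval (ζ ^ j) F = 0 :=
      (minpoly.dvd_iff).1 h2
    rw [hF, sub_eq_zero] at h3
    rw [← h3]
    simp [hψ, AddChar.zmodChar_apply, ← pow_mul, mul_comm]
  set Q := b.primeFactors
  set e : Finset ℕ → ZMod b := fun A => ((∑ q ∈ A, b / q : ℕ) : ZMod b)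
  have hvanish : ∀ j : ZMod b,
      ((∑ x, (g x : ℂ) * ψ (x * j)) - c) * ∏ q ∈ Q, (ψ (((b / q : ℕ) : ZMod b) * j) - 1) = 0 := by
    intro j
    by_cases hj : j.val.Coprime b
    · have := hconj j.val hj
      rw [mul_eq_zero, sub_eq_zero]
      left
      rw [← this]
      refine Finset.sum_congr rfl fun x _ => ?_
      rw [← AddChar.map_nsmul_eq_pow, nsmul_eq_mul, ZMod.natCast_zmod_val, mul_comm x j]
    · obtain ⟨q, hq, hqj, hqb⟩ := Nat.Prime.not_coprime_iff_dvd.1 hj
      rw [mul_eq_zero]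
      right
      refine Finset.prod_eq_zero (i := q)
        (Nat.mem_primeFactors.2 ⟨hq, hqb, NeZero.ne b⟩) ?_
      obtain ⟨k, hk⟩ := hqj
      have h0 : ((b / q : ℕ) : ZMod b) * j = 0 := by
        rw [← ZMod.natCast_zmod_val j, hk, ← Nat.cast_mul, ← mul_assoc, Nat.div_mul_cancel hqb,
          Nat.cast_mul, ZMod.natCast_self, zero_mul]
      rw [h0, AddChar.map_zero_eq_one, sub_self]
  have horth : ∀ z : ZMod b, ∑ j, ψ (z * j) = if z = 0 then (b : ℂ) else 0 := by
    intro z
    have h := AddChar.sum_mulShift z hprim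
    simp only [ZMod.card, Nat.cast_ite, Nat.cast_zero] at h
    simpa [mul_comm] using h
  have hprodsum : ∀ j : ZMod b, ∏ q ∈ Q, (ψ (((b / q : ℕ) : ZMod b) * j) - 1) =
      ∑ A ∈ Q.powerset, ψ (e A * j) * (-1 : ℂ) ^ (Q \ A).card := by
    intro j
    simp only [sub_eq_add_neg, Finset.prod_add]
    refine Finset.sum_congr rfl fun A hA => ?_
    rw [Finset.prod_const]
    congr 1
    simp only [e, Nat.cast_sum, Finset.sum_mul]
    clear hA
    induction A using Finset.induction_on with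
    | empty => simp
    | insert a s ha ih => rw [Finset.prod_insert ha, Finset.sum_insert ha, ih,
        AddChar.map_add_eq_mul]
  have hsum : (b : ℂ) * ((∑ A ∈ Q.powerset, (-1 : ℂ) ^ (Q \ A).card * g (-e A)) -
      c * (-1) ^ Q.card) = 0 := by
    have h0 : ∑ j, ((∑ x, (g x : ℂ) * ψ (x * j)) - c) *
        ∏ q ∈ Q, (ψ (((b / q : ℕ) : ZMod b) * j) - 1) = 0 :=
      Finset.sum_eq_zero fun j _ => hvanish j
    simp only [hprodsum, sub_mul, Finset.sum_sub_distrib, Finset.mul_sum] at h0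
    rw [mul_sub]
    refine Eq.trans ?_ h0
    congr 1
    · rw [Finset.sum_comm, Finset.mul_sum]
      refine Finset.sum_congr rfl fun A _ => ?_
      have hterm : ∀ j : ZMod b, (∑ x, (g x : ℂ) * ψ (x * j)) *
          (ψ (e A * j) * (-1 : ℂ) ^ (Q \ A).card) =
          ∑ x, (g x : ℂ) * (-1 : ℂ) ^ (Q \ A).card * ψ ((x + e A) * j) := by
        intro j
        rw [Finset.sum_mul]
        refine Finset.sum_congr rfl fun x _ => ?_
        rw [add_mul, AddChar.map_add_eq_mul]
        ring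
      simp only [hterm]
      rw [Finset.sum_comm]
      simp only [← Finset.mul_sum, horth, mul_ite, mul_zero]
      rw [Finset.sum_eq_single (-e A)]
      · simp; ring
      · intro x _ hx
        rw [if_neg]
        exact fun h => hx (eq_neg_of_add_eq_zero_left h)
      · simp
    · rw [Finset.sum_comm, Finset.sum_eq_single ∅]
      · simp [e, Finset.sum_const, ZMod.card]
      · intro A hA hne
        have := subset_sum_ne_zero b (Finset.mem_powerset.1 hA) (Finset.nonempty_iff_ne_empty.2 hne)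
        simp [← Finset.mul_sum, ← Finset.sum_mul, horth, e] at this ⊢
        simp [this]
      · simp
  have hb : (b : ℂ) ≠ 0 := Nat.cast_ne_zero.2 (NeZero.ne b)
  rw [mul_eq_zero, or_iff_right hb, sub_eq_zero] at hsum
  have hsumZ : (∑ A ∈ Q.powerset, (-1 : ℤ) ^ (Q \ A).card * g (-e A)) = c * (-1) ^ Q.card := by
    exact_mod_cast hsum
  calc |r| = |c * (-1) ^ Q.card| := by simp [abs_mul, hcr]
    _ = |∑ A ∈ Q.powerset, (-1 : ℤ) ^ (Q \ A).card * g (-e A)| := by rw [hsumZ]
    _ ≤ ∑ A ∈ Q.powerset, |(-1 : ℤ) ^ (Q \ A).card * g (-e A)| := Finset.abs_sum_le_sum_abs _ _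
    _ ≤ ∑ _A ∈ Q.powerset, (K : ℤ) :=
        Finset.sum_le_sum fun A _ => by simpa [abs_mul] using hK _
    _ = 2 ^ Q.card * K := by simp

/-- A symmetric compression modulo `b` forces `b ^ 2 ≤ n * 4 ^ ω(b)`. -/
theorem compression_bound {h : ZMod n → ℤ} (H : Perfect h) {b : ℕ} (hb : b ∣ n) (a : ZMod b)
    (hsym : ∀ x, comp b h (a + x) = comp b h (a - x)) :
    b ^ 2 ≤ n * 4 ^ b.primeFactors.card := by
  have : NeZero b := ⟨fun h0 => NeZero.ne n (by simpa [h0] using hb)⟩
  obtain ⟨K, hK⟩ := hb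
  have hK' : ∀ x : ZMod b, (univ.filter fun i : ZMod n => (i.val : ZMod b) = x).card = K := by
    intro x
    have := card_fibre ⟨K, hK⟩ x
    exact Nat.eq_of_mul_eq_mul_right (Nat.pos_of_neZero b) (by linarith)
  have key := symm_compression_bound (g := fun x => comp b h (a + x)) (r := ∑ i, h i) (K := K)
    (fun x => by simpa [sub_eq_add_neg] using (hsym x).symm)
    (fun x => by
      refine (Finset.abs_sum_le_sum_abs _ _).trans ?_
      calc ∑ i ∈ univ.filter (fun i : ZMod n => (i.val : ZMod b) = a + x), |h i|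
          = ∑ i ∈ univ.filter (fun i : ZMod n => (i.val : ZMod b) = a + x), (1 : ℤ) := by
            refine Finset.sum_congr rfl fun i _ => ?_
            rcases H.sign i with e | e <;> simp [e]
        _ ≤ K := le_of_eq (by rw [Finset.sum_const, nsmul_eq_mul, mul_one, hK']))
    (fun d => by
      rw [H.sum_sq, ← comp_corr ⟨K, hK⟩ H d]
      exact Fintype.sum_equiv (Equiv.addLeft a) _ _ fun x => by simp [add_assoc])
  have hsq := H.sum_sq
  have h2 : (n : ℤ) ≤ (2 ^ b.primeFactors.card * K : ℕ) ^ 2 := by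
    rw [← hsq, ← sq_abs]
    push_cast
    exact pow_le_pow_left₀ (abs_nonneg _) key 2
  have h3 : n ≤ (2 ^ b.primeFactors.card * K) ^ 2 := by exact_mod_cast h2
  have h4 : n * b ^ 2 ≤ n * (n * 4 ^ b.primeFactors.card) := by
    calc n * b ^ 2 ≤ (2 ^ b.primeFactors.card * K) ^ 2 * b ^ 2 := Nat.mul_le_mul_right _ h3
      _ = (b * K) ^ 2 * (2 ^ 2) ^ b.primeFactors.card := by rw [← pow_mul]; ring
      _ = n * (n * 4 ^ b.primeFactors.card) := by rw [← hK]; ring
  exact Nat.le_of_mul_le_mul_left h4 (Nat.pos_of_neZero n)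

end Vale.Agent.P033Sym
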