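import Vale.Agent.P033Sym.Compression

namespace Vale.Agent.P033Sym

open Finset

variable {n : ℕ} [NeZero n] {h : ZMod n → ℤ}

/-- `h` is invariant under the affine map `i ↦ t * i + s`. -/
def Inv (h : ZMod n → ℤ) (t s : ZMod n) : Prop := ∀ i, h (t * i + s) = h i

lemma Perfect.no_period (H : Perfect h) {s : ZMod n} (hs : ∀ i, h (i + s) = h i) : s = 0 := by
  by_contra h0
  have := H.corr s h0
  simp [hs, H.sq, ZMod.card, NeZero.ne n] at this

lemma Inv.pow {t s : ZMod n} (H : Inv h t s) (k : ℕ) :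
    Inv h (t ^ k) ((∑ j ∈ range k, t ^ j) * s) := by
  induction k with
  | zero => intro i; simp
  | succ k ih =>
    intro i
    have := H (t ^ k * i + (∑ j ∈ range k, t ^ j) * s)
    rw [← ih i, ← this]
    congr 1
    rw [geom_sum_succ, pow_succ]
    ring

lemma Inv.shift_zero (P : Perfect h) {t s : ZMod n} (H : Inv h t s) {k : ℕ} (hk : t ^ k = 1) :
    (∑ j ∈ range k, t ^ j) * s = 0 := by
  refine P.no_period fun i => ?_
  have := H.pow k i
  rwa [hk, one_mul] at this

/-- Geometric sums at `1 + x` with `x` a multiple of `p`, for odd `p`. -/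
lemma geom_sum_form {R : Type*} [CommRing R] {p : ℕ} (hp : Odd p) (y : R) :
    ∀ x' : R, y = 1 + (p : R) * x' → ∃ w, ∑ j ∈ range p, y ^ j = (p : R) * (1 + x' * (p : R) * w) := by
  intro x' hy
  obtain ⟨m, hm⟩ := hp
  have hs : ∀ j : ℕ, ∃ w, y ^ j = 1 + (j : R) * ((p : R) * x') + ((p : R) * x') ^ 2 * w := by
    intro j
    induction j with
    | zero => exact ⟨0, by simp⟩
    | succ j ih =>
      obtain ⟨w, hw⟩ := ih
      exact ⟨w + j + (p : R) * x' * w, by rw [pow_succ, hw, hy]; push_cast; ring⟩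
  choose w hw using hs
  refine ⟨(m : R) + x' * ∑ j ∈ range p, w j, ?_⟩
  have h2 : (∑ j ∈ range p, (j : R)) = (p : R) * (m : R) := by
    rw [← Nat.cast_sum, ← Nat.cast_mul, Finset.sum_range_id, hm]
    congr 1
    rw [Nat.add_sub_cancel, mul_comm 2 m, ← mul_assoc, Nat.mul_div_cancel _ two_pos]
  simp only [hw, Finset.sum_add_distrib, Finset.sum_const, card_range, nsmul_eq_mul, mul_one,
    ← Finset.sum_mul, ← Finset.mul_sum, h2]
  ring

lemma dvd_nilpotent {x : ZMod n} (hx : ∀ p ∈ n.primeFactors, p ∣ x.val) : IsNilpotent x := by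
  refine ⟨n, ?_⟩
  rw [← ZMod.natCast_zmod_val x, ← Nat.cast_pow, ZMod.natCast_eq_zero_iff]
  rcases eq_or_ne x.val 0 with h0 | h0
  · simp [h0, NeZero.ne n]
  rw [← Nat.factorization_le_iff_dvd (NeZero.ne n) (pow_ne_zero _ h0), Nat.factorization_pow]
  intro p
  by_cases hp : p ∈ n.primeFactors
  · have h1 : 1 ≤ x.val.factorization p :=
      (Nat.prime_of_mem_primeFactors hp).factorization_pos_of_dvd h0 (hx p hp)
    calc n.factorization p ≤ n := (Nat.factorization_lt p (NeZero.ne n)).le
      _ ≤ n * x.val.factorization p := Nat.le_mul_of_pos_right _ h1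
  · rw [← Nat.support_factorization, Finsupp.notMem_support_iff] at hp
    simp [hp]

lemma nilpotent_dvd {x : ZMod n} (hx : IsNilpotent x) {p : ℕ} (hp : p.Prime) (hpn : p ∣ n) :
    p ∣ x.val := by
  obtain ⟨k, hk⟩ := hx
  rw [← ZMod.natCast_zmod_val x, ← Nat.cast_pow, ZMod.natCast_eq_zero_iff] at hk
  exact hp.dvd_of_dvd_pow (hpn.trans hk)

/-- No invariance under a map congruent to the identity, of odd prime order. -/
lemma no_odd_order (P : Perfect h) {y s : ZMod n} (H : Inv h y s) {p : ℕ} (hp : p.Prime)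
    (hp2 : p ≠ 2) (hy : IsNilpotent (y - 1)) (hyp : y ^ p = 1) : y = 1 := by
  by_contra hne
  have hodd : Odd p := hp.odd_of_ne_two hp2
  have hS : (y - 1) * ∑ j ∈ range p, y ^ j = 0 := by rw [mul_geom_sum, hyp, sub_self]
  by_cases hpn : p ∣ n
  swap
  · have hu : IsUnit ((p : ℕ) : ZMod n) :=
      (ZMod.isUnit_iff_coprime p n).2 (hp.coprime_iff_not_dvd.2 hpn)
    have hsum : ∃ z, ∑ j ∈ range p, y ^ j = (p : ZMod n) + (y - 1) * z := by
      refine ⟨∑ j ∈ range p, ∑ i ∈ range j, y ^ i, ?_⟩
      rw [Finset.mul_sum]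
      simp only [mul_geom_sum]
      simp [Finset.sum_sub_distrib]
    obtain ⟨z, hz⟩ := hsum
    have : IsUnit (∑ j ∈ range p, y ^ j) := by
      rw [hz]
      exact IsNilpotent.isUnit_add_left_of_commute ((Commute.all _ _).isNilpotent_mul_right hy) hu
        (Commute.all _ _)
    exact hne (sub_eq_zero.1 (this.mul_left_eq_zero.1 hS))
  obtain ⟨a, ha⟩ := nilpotent_dvd hy hp hpn
  have hx : y - 1 = (p : ZMod n) * (a : ZMod n) := by
    rw [← Nat.cast_mul, ← ha, ZMod.natCast_zmod_val]
  obtain ⟨w, hw⟩ := geom_sum_form hodd y (a : ZMod n) (by linear_combination hx)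
  have hu : IsUnit (1 + (a : ZMod n) * (p : ZMod n) * w) := by
    refine IsNilpotent.isUnit_one_add ((Commute.all _ _).isNilpotent_mul_right ?_)
    rwa [mul_comm, ← hx]
  have hxp : (y - 1) * (p : ZMod n) = 0 :=
    hu.mul_left_eq_zero.1 (by rw [mul_assoc, ← hw]; exact hS)
  have hsp : s * (p : ZMod n) = 0 := by
    have h2 := H.shift_zero P hyp
    rw [hw, mul_comm, ← mul_assoc] at h2
    exact hu.mul_left_eq_zero.1 h2
  obtain ⟨m, hm⟩ := hpn
  have hker : ∀ z : ZMod n, z * (p : ZMod n) = 0 → ∃ k : ℕ, z = ((m * k : ℕ) : ZMod n) := by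
    intro z hz
    rw [← ZMod.natCast_zmod_val z, ← Nat.cast_mul, ZMod.natCast_eq_zero_iff] at hz
    have hz' : p * m ∣ p * z.val := by rwa [← hm, mul_comm p]
    obtain ⟨k, hk⟩ := (Nat.mul_dvd_mul_iff_left hp.pos).1 hz'
    exact ⟨k, by rw [← hk, ZMod.natCast_zmod_val]⟩
  obtain ⟨k, hk⟩ := hker _ hxp
  obtain ⟨l, hl⟩ := hker _ hsp
  let π : ZMod n →+* ZMod p := ZMod.castHom ⟨m, hm⟩ (ZMod p)
  have hmk : ∀ c : ℕ, ((m * c : ℕ) : ZMod n) = 0 ↔ (c : ZMod p) = 0 := by
    intro c
    rw [ZMod.natCast_eq_zero_iff, ZMod.natCast_eq_zero_iff]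
    have hm0 : 0 < m := Nat.pos_of_ne_zero fun h0 => NeZero.ne n (by simp [hm, h0])
    conv_lhs => arg 1; rw [hm, mul_comm p m]
    exact Nat.mul_dvd_mul_iff_left hm0
  have hk0 : (k : ZMod p) ≠ 0 := by
    rw [Ne, ← hmk, ← hk, sub_eq_zero]
    exact hne
  have hpm : p ∣ m := by
    have h1 := nilpotent_dvd hy hp ⟨m, hm⟩
    have h2 : π (y - 1) = 0 := by
      rw [← ZMod.natCast_zmod_val (y - 1), map_natCast, ZMod.natCast_eq_zero_iff]
      exact h1
    rw [hk, map_natCast, ZMod.natCast_eq_zero_iff] at h2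
    rcases hp.dvd_mul.1 h2 with h3 | h3
    · exact h3
    · exact absurd ((ZMod.natCast_eq_zero_iff _ _).2 h3) hk0
  have : Fact p.Prime := ⟨hp⟩
  have hπm : π (m : ZMod n) = 0 := by
    rw [map_natCast, ZMod.natCast_eq_zero_iff]; exact hpm
  let φ : ZMod n → ZMod p := fun i => (k : ZMod p) * π i + (l : ZMod p)
  have hcast : ∀ c d : ℕ, (c : ZMod p) = (d : ZMod p) →
      ((m * c : ℕ) : ZMod n) = ((m * d : ℕ) : ZMod n) := by
    intro c d hcd
    rw [ZMod.natCast_eq_natCast_iff, hm, mul_comm p m]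
    exact Nat.ModEq.mul_left' m ((ZMod.natCast_eq_natCast_iff _ _ _).1 hcd)
  have hstep : ∀ i, h (i + ((m * (φ i).val : ℕ) : ZMod n)) = h i := by
    intro i
    conv_rhs => rw [← H i]
    congr 1
    rw [hcast (φ i).val (k * i.val + l) (by
      rw [ZMod.natCast_zmod_val]
      simp [φ, π, ZMod.natCast_val])]
    push_cast at hk hl ⊢
    rw [ZMod.natCast_zmod_val]
    linear_combination (-i) * hk - hl
  have hiter : ∀ i, ∀ j : ℕ, h (i + ((m * ((φ i).val * j) : ℕ) : ZMod n)) = h i := by
    intro i j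
    induction j with
    | zero => simp
    | succ j ih =>
      have hφ : φ (i + ((m * ((φ i).val * j) : ℕ) : ZMod n)) = φ i := by
        simp only [φ]
        rw [map_add, Nat.cast_mul, map_mul, hπm, zero_mul, add_zero]
      have := hstep (i + ((m * ((φ i).val * j) : ℕ) : ZMod n))
      rw [hφ, ih] at this
      rw [← this]
      congr 1
      push_cast
      ring
  have hper : ∀ i, φ i ≠ 0 → h (i + (m : ZMod n)) = h i := by
    intro i hi
    have := hiter i ((φ i)⁻¹).val
    rwa [hcast ((φ i).val * ((φ i)⁻¹).val) 1 (by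
      rw [Nat.cast_mul, ZMod.natCast_zmod_val, ZMod.natCast_zmod_val, mul_inv_cancel₀ hi]
      simp), mul_one] at this
  have hm0 : (m : ZMod n) ≠ 0 := by
    rw [← mul_one m, Ne, hmk 1]; simp
  set B := univ.filter fun i : ZMod n => φ i = 0
  have hB : B.card * p = n := by
    have : B = univ.filter fun i : ZMod n => (i.val : ZMod p) = -(k : ZMod p)⁻¹ * l := by
      refine Finset.filter_congr fun i _ => ?_
      simp only [φ, π, ZMod.natCast_val, ZMod.castHom_apply]
      constructor
      · intro e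
        field_simp
        linear_combination e
      · intro e
        rw [e]
        field_simp
        ring
    rw [this]
    exact card_fibre ⟨m, hm⟩ _
  have hlow : ∀ i, h i * h (i + m) ≥ 1 - 2 * (if φ i = 0 then 1 else 0) := by
    intro i
    split_ifs with hi
    · rcases P.sign i with e | e <;> rcases P.sign (i + m) with e' | e' <;> simp [e, e']
    · simp [hper i hi, P.sq]
  have hsum := Finset.sum_le_sum (s := univ) fun i _ => hlow i
  rw [P.corr _ hm0, Finset.sum_sub_distrib, ← Finset.mul_sum, Finset.sum_boole] at hsum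
  simp only [Finset.sum_const, Finset.card_univ, ZMod.card, nsmul_eq_mul, mul_one] at hsum
  have h3 : 3 ≤ p := by have := hp.two_le; omega
  have hn := Nat.pos_of_neZero n
  have hle : n ≤ 2 * B.card := by exact_mod_cast (by linarith : (n : ℤ) ≤ 2 * (B.card : ℤ))
  nlinarith

/-- An alternating pairing on a finset with half-odd cardinality has nonzero sign sum. -/
lemma sum_ne_zero_of_pairs {C : Finset (ZMod n)} {f : ZMod n → ℤ} {M : ZMod n} {v : ℕ}
    (hcard : C.card = 2 * v) (hv : Odd v) (hsgn : ∀ i ∈ C, f i = 1 ∨ f i = -1)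
    (hM : M ≠ 0) (hM2 : M + M = 0) (hC : ∀ i ∈ C, i + M ∈ C)
    (hf : ∀ i ∈ C, f (i + M) = f i) : ∑ i ∈ C, f i ≠ 0 := by
  intro h0
  set N := C.filter fun i => f i = -1
  have hN : (N.card : ZMod 2) = 0 := by
    rw [Finset.cast_card]
    refine Finset.sum_involution (fun i _ => i + M) (fun i _ => by decide)
      (fun i _ _ => by simpa using hM) (fun i hi => ?_) (fun i _ => by simp [add_assoc, hM2])
    rw [Finset.mem_filter] at hi ⊢
    exact ⟨hC i hi.1, (hf i hi.1).trans hi.2⟩
  have heq : ∀ i ∈ C, f i = 1 - 2 * (if f i = -1 then 1 else 0) := by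
    intro i hi
    rcases hsgn i hi with e | e <;> simp [e]
  rw [Finset.sum_congr rfl heq, Finset.sum_sub_distrib, ← Finset.mul_sum, Finset.sum_boole] at h0
  simp only [Finset.sum_const, nsmul_eq_mul, mul_one, hcard] at h0
  have hNv : N.card = v := by push_cast at h0; simp only [N]; omega
  rw [hNv, ZMod.natCast_eq_zero_iff_even] at hN
  exact (Nat.not_even_iff_odd.2 hv) hN

/-- No invariance under a map congruent to the identity, of order two. -/
lemma no_order_two {u : ℕ} (hn : n = 4 * u ^ 2) (hu : Odd u) (hu1 : 1 < u) (P : Perfect h)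
    {y s : ZMod n} (H : Inv h y s) (hy : IsNilpotent (y - 1)) (hy2 : y ^ 2 = 1) : y = 1 := by
  by_contra hne
  have hu2 : 1 < u ^ 2 := Nat.one_lt_pow two_ne_zero hu1
  have h2n : 2 ∣ n := ⟨2 * u ^ 2, by rw [hn]; ring⟩
  obtain ⟨c, hc⟩ := nilpotent_dvd hy Nat.prime_two h2n
  set M : ZMod n := ((2 * u ^ 2 : ℕ) : ZMod n)
  have hx0 : (y - 1) * (y + 1) = 0 := by linear_combination hy2
  have hy1 : y + 1 = ((2 * (1 + c) : ℕ) : ZMod n) := by
    have h := ZMod.natCast_zmod_val (y - 1)
    rw [hc] at h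
    push_cast at h ⊢
    linear_combination -h
  have hco : (u ^ 2).Coprime (1 + c) := by
    refine Nat.Coprime.pow_left 2 (Nat.coprime_of_dvd fun q hq hqu hqc => ?_)
    have hqn : q ∣ n := hqu.trans ⟨4 * u, by rw [hn]; ring⟩
    have hq2 : q ∣ (y - 1).val := nilpotent_dvd hy hq hqn
    rw [hc] at hq2
    rcases hq.dvd_mul.1 hq2 with h' | h'
    · obtain rfl := (Nat.prime_dvd_prime_iff_eq hq Nat.prime_two).1 h'
      exact (Nat.not_even_iff_odd.2 hu) (even_iff_two_dvd.2 hqu)
    · exact hq.one_lt.ne' (Nat.dvd_one.1 ((Nat.dvd_add_left h').1 hqc))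
  have hker : ∀ z : ℕ, (z : ZMod n) * (y + 1) = 0 → u ^ 2 ∣ z := by
    intro z hz
    rw [hy1, ← Nat.cast_mul, ZMod.natCast_eq_zero_iff, hn] at hz
    rw [show z * (2 * (1 + c)) = 2 * (z * (1 + c)) by ring,
      show 4 * u ^ 2 = 2 * (2 * u ^ 2) by ring, Nat.mul_dvd_mul_iff_left two_pos] at hz
    exact hco.dvd_of_dvd_mul_right ((dvd_mul_left _ _).trans hz)
  have hyM : y = 1 + M := by
    have h1 := hker (y - 1).val (by rw [ZMod.natCast_zmod_val]; exact hx0)
    have h3 : 2 * u ^ 2 ∣ (y - 1).val :=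
      Nat.Coprime.mul_dvd_of_dvd_of_dvd (Nat.coprime_two_left.2 (hu.pow)) ⟨c, hc⟩ h1
    obtain ⟨d, hd⟩ := h3
    have hlt := ZMod.val_lt (y - 1)
    have hd0 : d ≠ 0 := fun h0 => hne (sub_eq_zero.1 ((ZMod.val_eq_zero _).1 (by simp [hd, h0])))
    have hd1 : d = 1 := by
      rw [hd, hn] at hlt
      have : d < 2 := by nlinarith
      omega
    have h5 := ZMod.natCast_zmod_val (y - 1)
    rw [hd, hd1, mul_one] at h5
    linear_combination -h5
  have hM : M ≠ 0 := by
    rw [Ne, ZMod.natCast_eq_zero_iff, hn]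
    intro hd
    have := Nat.le_of_dvd (by positivity) hd
    omega
  have hMM : M + M = 0 := by
    rw [← Nat.cast_add, ZMod.natCast_eq_zero_iff, hn]
    exact ⟨1, by ring⟩
  obtain ⟨a, hs⟩ : ∃ a : ℕ, s = ((u ^ 2 * a : ℕ) : ZMod n) := by
    have h1 := H.shift_zero P hy2
    rw [Finset.sum_range_succ, Finset.sum_range_one, pow_zero, pow_one] at h1
    obtain ⟨a, ha⟩ := hker s.val (by rw [ZMod.natCast_zmod_val]; linear_combination h1)
    exact ⟨a, by rw [← ha, ZMod.natCast_zmod_val]⟩
  let π : ZMod n →+* ZMod 2 := ZMod.castHom h2n (ZMod 2)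
  have hMe : ∀ i : ZMod n, M * i = if π i = 0 then 0 else M := by
    intro i
    rw [← ZMod.natCast_zmod_val i, map_natCast]
    rcases Nat.even_or_odd' i.val with ⟨j, hj | hj⟩
    · rw [hj, if_pos (by rw [ZMod.natCast_eq_zero_iff]; exact dvd_mul_right 2 j)]
      push_cast
      linear_combination (j : ZMod n) * hMM
    · rw [hj, if_neg (by rw [ZMod.natCast_eq_zero_iff]; omega)]
      push_cast
      linear_combination (j : ZMod n) * hMM
  have hπM : π M = 0 := by
    rw [map_natCast, ZMod.natCast_eq_zero_iff]; exact dvd_mul_right _ _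
  set E := univ.filter fun i : ZMod n => π i = 0
  set O := univ.filter fun i : ZMod n => ¬ π i = 0
  have hE : E.card = 2 * u ^ 2 := by
    have h' := card_fibre (n := n) h2n (0 : ZMod 2)
    have : E = univ.filter fun i : ZMod n => (i.val : ZMod 2) = 0 := by
      refine Finset.filter_congr fun i _ => ?_
      simp [π, ZMod.natCast_val]
    rw [this]; omega
  have hO : O.card = 2 * u ^ 2 := by
    have h' := Finset.card_filter_add_card_filter_not (s := (univ : Finset (ZMod n)))
      (fun i => π i = 0)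
    simp only [Finset.card_univ, ZMod.card] at h'
    simp only [E] at hE
    simp only [O]
    omega
  have h2c : ((2 : ℕ) : ZMod n) ≠ 0 := by
    rw [Ne, ZMod.natCast_eq_zero_iff]; intro hd; have := Nat.le_of_dvd two_pos hd; omega
  have hπ2 : π ((2 : ℕ) : ZMod n) = 0 := by rw [map_natCast]; exact ZMod.natCast_self 2
  have hanti : ∀ (S : Finset (ZMod n)), S.card = 2 * u ^ 2 → ∑ i ∈ S, h i * h (i + M) = -(2 * u ^ 2 : ℕ) →
      ∀ i ∈ S, h (i + M) = -h i := by
    intro S hS hsum i hi
    by_contra hcon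
    have h1 : ∀ j ∈ S, (-1 : ℤ) ≤ h j * h (j + M) := fun j _ => by
      rcases P.sign j with e | e <;> rcases P.sign (j + M) with e' | e' <;> simp [e, e']
    have h2 : (-1 : ℤ) < h i * h (i + M) := by
      rcases P.sign i with e | e <;> rcases P.sign (i + M) with e' | e' <;> simp_all
    have := Finset.sum_lt_sum h1 ⟨i, hi, h2⟩
    simp [hsum, hS] at this
  have hsplit : ∀ f : ZMod n → ℤ, ∑ i, f i = ∑ i ∈ E, f i + ∑ i ∈ O, f i := fun f =>
    (Finset.sum_filter_add_sum_filter_not univ (fun i => π i = 0) f).symm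
  have hinv : ∀ i, h (i + (if π i = 0 then 0 else M) + s) = h i := by
    intro i
    conv_rhs => rw [← H i]
    rw [hyM, add_mul, one_mul, hMe i]
  have hPM := P.corr M hM
  rw [hsplit] at hPM
  have hP2 := P.corr _ h2c
  have hSmem : ∀ i, π (i + M) = π i := fun i => by rw [map_add, hπM, add_zero]
  rcases Nat.even_or_odd' a with ⟨b, rfl | rfl⟩
  · -- translation by a multiple of M
    have hs' : s = (b : ZMod n) * M := by rw [hs]; simp only [M]; push_cast; ring
    have key : ∀ C F : Finset (ZMod n), C.card = 2 * u ^ 2 → F.card = 2 * u ^ 2 →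
        (∀ f : ZMod n → ℤ, ∑ i, f i = ∑ i ∈ C, f i + ∑ i ∈ F, f i) →
        (∀ i ∈ C, h (i + M) = h i) → (∀ i ∈ C, i + M ∈ C) →
        (∀ i ∈ C, i + ((2 : ℕ) : ZMod n) ∈ C) → (∀ i ∈ F, i + ((2 : ℕ) : ZMod n) ∈ F) → False := by
      intro C F hC hF hsp hper hCM hC2 hF2
      have hF' := hanti F hF (by
        have := P.corr M hM
        rw [hsp, Finset.sum_congr rfl fun i hi => by rw [hper i hi, P.sq]] at this
        simp [hC] at this
        push_cast
        linarith)
      have hz : ((2 : ℕ) : ZMod n) + M ≠ 0 := by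
        rw [← Nat.cast_add, Ne, ZMod.natCast_eq_zero_iff]
        intro hd
        have := Nat.le_of_dvd (by positivity) hd
        omega
      have h1 := P.corr _ hz
      rw [hsp] at h1 hP2
      have hC' : ∀ i ∈ C, h i * h (i + (((2 : ℕ) : ZMod n) + M)) = h i * h (i + ((2 : ℕ) : ZMod n)) := by
        intro i hi; rw [← add_assoc, hper _ (hC2 i hi)]
      have hF'' : ∀ i ∈ F, h i * h (i + (((2 : ℕ) : ZMod n) + M)) = -(h i * h (i + ((2 : ℕ) : ZMod n))) := by
        intro i hi; rw [← add_assoc, hF' _ (hF2 i hi)]; ring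
      rw [Finset.sum_congr rfl hC', Finset.sum_congr rfl hF'', Finset.sum_neg_distrib] at h1
      refine sum_ne_zero_of_pairs (f := fun i => h i * h (i + ((2 : ℕ) : ZMod n))) hC hu.pow
        (fun i _ => ?_) hM hMM hCM (fun i hi => ?_) (by linarith)
      · rcases P.sign i with e | e <;> rcases P.sign (i + ((2 : ℕ) : ZMod n)) with e' | e' <;>
          (rw [e, e']; norm_num)
      · rw [hper i hi, show i + M + ((2 : ℕ) : ZMod n) = i + ((2 : ℕ) : ZMod n) + M by ring,
          hper _ (hC2 i hi)]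
    have hclose : ∀ i, π (i + ((2 : ℕ) : ZMod n)) = π i := fun i => by rw [map_add, hπ2, add_zero]
    rcases Nat.even_or_odd' b with ⟨d, rfl | rfl⟩
    · have hs0 : s = 0 := by rw [hs']; push_cast; linear_combination (d : ZMod n) * hMM
      refine key O E hO hE (fun f => by rw [hsplit f, add_comm]) ?_ ?_ ?_ ?_
      · intro i hi
        have h' := hinv i
        rwa [if_neg (Finset.mem_filter.1 hi).2, hs0, add_zero] at h'
      all_goals intro i hi
      all_goals simp only [E, O, mem_filter, mem_univ, true_and, hSmem, hclose] at hi ⊢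
      all_goals exact hi
    · have hs1 : s = M := by rw [hs']; push_cast; linear_combination (d : ZMod n) * hMM
      refine key E O hE hO hsplit ?_ ?_ ?_ ?_
      · intro i hi
        have h' := hinv i
        rwa [if_pos (Finset.mem_filter.1 hi).2, hs1, add_zero] at h'
      all_goals intro i hi
      all_goals simp only [E, O, mem_filter, mem_univ, true_and, hSmem, hclose] at hi ⊢
      all_goals exact hi
  · -- translation exchanging the parity classes
    have hs2 : s + s = M := by
      rw [hs]; simp only [M]; push_cast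
      have := hMM
      simp only [M] at this
      push_cast at this
      linear_combination (b : ZMod n) * this
    have hπs : π s = 1 := by
      rw [hs, map_natCast, ZMod.natCast_eq_one_iff_odd]
      exact hu.pow.mul (odd_two_mul_add_one b)
    have hs0 : s ≠ 0 := fun h0 => by simp [h0] at hπs
    have hflip : ∀ i : ZMod n, π (i + s) = 0 ↔ ¬ π i = 0 := by
      intro i; rw [map_add, hπs]; generalize π i = z; revert z; decide
    have hEh : ∀ i ∈ E, h (i + s) = h i := fun i hi => by
      have h' := hinv i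
      rwa [if_pos (Finset.mem_filter.1 hi).2, add_zero] at h'
    have hmap : ∀ f : ZMod n → ℤ, ∑ i ∈ O, f i = ∑ i ∈ E, f (i + s) := fun f =>
      (Finset.sum_equiv (Equiv.addRight s) (fun i => by
        simp only [E, O, mem_filter, mem_univ, true_and, Equiv.coe_addRight]
        rw [hflip, not_not]
        ) (fun i _ => rfl)).symm
    have hEanti : ∀ i ∈ E, h (i + M) = -h i := by
      refine hanti E hE ?_
      have hPs := P.corr s hs0
      rw [hsplit, hmap] at hPs
      have e1 : ∀ i ∈ E, h i * h (i + s) = 1 := fun i hi => by rw [hEh i hi, P.sq]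
      have e2 : ∀ i ∈ E, h (i + s) * h (i + s + s) = h i * h (i + M) := fun i hi => by
        rw [hEh i hi, add_assoc, hs2]
      rw [Finset.sum_congr rfl e1, Finset.sum_congr rfl e2] at hPs
      simp [hE] at hPs
      push_cast
      linarith
    rw [hsplit, hmap] at hP2
    have hE2 : ∀ i ∈ E, i + ((2 : ℕ) : ZMod n) ∈ E := fun i hi => by
      simp only [E, mem_filter, mem_univ, true_and] at hi ⊢
      rw [map_add, hπ2, hi, add_zero]
    have hOE : ∀ i ∈ E, h (i + s) * h (i + s + ((2 : ℕ) : ZMod n)) = h i * h (i + ((2 : ℕ) : ZMod n)) := by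
      intro i hi
      rw [hEh i hi, show i + s + ((2 : ℕ) : ZMod n) = i + ((2 : ℕ) : ZMod n) + s by ring,
        hEh _ (hE2 i hi)]
    rw [Finset.sum_congr rfl hOE] at hP2
    refine sum_ne_zero_of_pairs (f := fun i => h i * h (i + ((2 : ℕ) : ZMod n))) hE hu.pow
      (fun i _ => ?_) hM hMM (fun i hi => ?_) (fun i hi => ?_) (by linarith)
    · rcases P.sign i with e | e <;> rcases P.sign (i + ((2 : ℕ) : ZMod n)) with e' | e' <;>
        (rw [e, e']; norm_num)
    · simp only [E, mem_filter, mem_univ, true_and, hSmem] at hi ⊢; exact hi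
    · rw [hEanti i hi, show i + M + ((2 : ℕ) : ZMod n) = i + ((2 : ℕ) : ZMod n) + M by ring,
        hEanti _ (hE2 i hi)]
      ring

/-- The symmetry group meets the kernel of reduction modulo the radical trivially. -/
theorem trivial_of_nilpotent {u : ℕ} (hn : n = 4 * u ^ 2) (hu : Odd u) (hu1 : 1 < u)
    (P : Perfect h) {t s : ZMod n} (H : Inv h t s) (ht : IsNilpotent (t - 1)) :
    t = 1 ∧ s = 0 := by
  suffices ht1 : t = 1 from ⟨ht1, P.no_period fun i => by simpa [ht1] using H i⟩
  by_contra hne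
  have hunit : IsUnit t := by
    simpa using IsNilpotent.isUnit_one_add ht
  obtain ⟨U, rfl⟩ := hunit
  have hne' : orderOf U ≠ 1 := fun h1 => hne (by simp [orderOf_eq_one_iff.1 h1])
  obtain ⟨p, hp, hpd⟩ := Nat.exists_prime_and_dvd hne'
  set y := U ^ (orderOf U / p) with hy
  have hyo : orderOf y = p := orderOf_pow_orderOf_div (orderOf_pos U).ne' hpd
  have hy1 : (y : ZMod n) ≠ 1 := by
    intro h1
    exact hp.ne_one (by rw [← hyo, Units.ext (h1.trans Units.val_one.symm), orderOf_one])
  have hyp : (y : ZMod n) ^ p = 1 := by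
    rw [← Units.val_pow_eq_pow_val, ← hyo, pow_orderOf_eq_one, Units.val_one]
  have hnil : IsNilpotent ((y : ZMod n) - 1) := by
    rw [hy, Units.val_pow_eq_pow_val, ← mul_geom_sum]
    exact (Commute.all _ _).isNilpotent_mul_right ht
  have Hy := H.pow (orderOf U / p)
  rw [← Units.val_pow_eq_pow_val, ← hy] at Hy
  rcases eq_or_ne p 2 with rfl | hp2
  · exact hy1 (no_order_two hn hu hu1 P Hy hnil hyp)
  · exact hy1 (no_odd_order P Hy hp hp2 hnil hyp)

lemma two_pow_lt {u : ℕ} (hu : Odd u) (hu3 : 3 < u) : 2 ^ (u.primeFactors.card + 1) < u := by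
  have hle : 3 ^ u.primeFactors.card ≤ u := by
    calc 3 ^ u.primeFactors.card ≤ ∏ q ∈ u.primeFactors, q := by
          rw [← Finset.prod_const]
          refine Finset.prod_le_prod' fun q hq => ?_
          have h2 := (Nat.prime_of_mem_primeFactors hq).two_le
          have : q ≠ 2 := fun e => (Nat.not_even_iff_odd.2 hu)
            (even_iff_two_dvd.2 (e ▸ Nat.dvd_of_mem_primeFactors hq))
          omega
      _ ≤ u := Nat.le_of_dvd (by omega) (Nat.prod_primeFactors_dvd u)
  obtain ⟨d, hd⟩ := hu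
  generalize u.primeFactors.card = k at hle ⊢
  rcases k with _ | _ | w
  · norm_num; omega
  · norm_num; omega
  · have h2 : 2 ^ w ≤ 3 ^ w := Nat.pow_le_pow_left (by norm_num) w
    have h3 : 0 < 2 ^ w := Nat.two_pow_pos w
    simp only [pow_succ] at hle ⊢
    omega

/-- No symmetry congruent to minus the identity. -/
theorem no_minus {u : ℕ} (hn : n = 4 * u ^ 2) (hu : Odd u) (hu3 : 3 < u)
    (P : Perfect h) {t s : ZMod n} (H : Inv h t s) (ht : IsNilpotent (t + 1)) : False := by
  have hb : u ^ 2 ∣ n := ⟨4, by rw [hn]; ring⟩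
  have hsq : t * t = 1 ∧ t * s + s = 0 := by
    refine trivial_of_nilpotent hn hu (by omega) P (fun i => ?_) ?_
    · conv_rhs => rw [← H i, ← H (t * i + s)]
      congr 1; ring
    · rw [show t * t - 1 = (t - 1) * (t + 1) by ring]
      exact (Commute.all _ _).isNilpotent_mul_left ht
  have : NeZero (u ^ 2) := ⟨pow_ne_zero 2 (by omega)⟩
  let π : ZMod n →+* ZMod (u ^ 2) := ZMod.castHom hb (ZMod (u ^ 2))
  have h2u : IsUnit ((2 : ℕ) : ZMod (u ^ 2)) :=
    (ZMod.isUnit_iff_coprime 2 _).2 (Nat.coprime_two_left.2 hu.pow)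
  have hπt : π t = -1 := by
    have hfac : (π t - 1) * (π t + 1) = 0 := by
      have := congrArg π hsq.1
      rw [map_mul, map_one] at this
      linear_combination this
    have hunit : IsUnit (π t - 1) := by
      have hnil : IsNilpotent (π t + 1) := by simpa using ht.map π
      rw [show π t - 1 = (π t + 1) + (-((2 : ℕ) : ZMod (u ^ 2))) by push_cast; ring, add_comm]
      exact IsNilpotent.isUnit_add_left_of_commute hnil h2u.neg (Commute.all _ _)
    exact eq_neg_of_add_eq_zero_left (hunit.mul_right_eq_zero.1 hfac)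
  obtain ⟨a, ha⟩ := h2u.dvd (a := π s)
  let e : ZMod n ≃ ZMod n :=
    { toFun := fun i => t * i + s
      invFun := fun i => t * i + s
      left_inv := fun i => by linear_combination i * hsq.1 + hsq.2
      right_inv := fun i => by linear_combination i * hsq.1 + hsq.2 }
  have key : ∀ x, comp (u ^ 2) h x = comp (u ^ 2) h (π s - x) := by
    intro x
    have hπ : ∀ i : ZMod n, (i.val : ZMod (u ^ 2)) = π i := fun i => by
      simp [π, ZMod.natCast_val]
    simp only [comp, hπ]
    refine Finset.sum_equiv e (fun i => ?_) (fun i _ => (H i).symm)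
    simp only [mem_filter, mem_univ, true_and, e, Equiv.coe_fn_mk, map_add, map_mul, hπt]
    constructor <;> intro h' <;> linear_combination -h'
  have hbound := compression_bound P hb a fun x => by
    rw [key (a + x), ha]
    congr 1
    push_cast
    ring
  rw [Nat.primeFactors_pow u two_ne_zero, hn] at hbound
  have h1 := two_pow_lt hu hu3
  have h4 : 4 ^ u.primeFactors.card = (2 ^ u.primeFactors.card) ^ 2 := by
    rw [← pow_mul, mul_comm, pow_mul]; norm_num
  rw [h4] at hbound
  rw [pow_succ] at h1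
  have h2 : (2 * 2 ^ u.primeFactors.card) ^ 2 < u ^ 2 :=
    Nat.pow_lt_pow_left (by linarith) two_ne_zero
  have h3 : 0 < u ^ 2 := Nat.pos_of_neZero _
  nlinarith

end Vale.Agent.P033Sym
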